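import Mathlib

/-! P101: estimates for absorption. -/

namespace Vale.Agent.P101.Lit

open scoped unitInterval ComplexOrder

namespace ApproxAux

variable {S : Type*} [CStarAlgebra S] {v : S}

theorem norm_conj_eq (hv : v ∈ unitary S) (C : S) : ‖v * C * star v‖ = ‖C‖ := by
  rw [CStarRing.norm_mul_mem_unitary _ (Unitary.star_mem hv), CStarRing.norm_mem_unitary_mul _ hv]

/-- An almost commuting coefficient times an almost conjugate element. -/
theorem term_le (hv : v ∈ unitary S) {B L C : S} {β γ δ : ℝ} (hδ : 0 ≤ δ) (hδ1 : δ ≤ 1)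
    (hB : ‖B‖ ≤ β) (hL : ‖L‖ ≤ γ) (hc : ‖L - v * C * star v‖ ≤ 2 * (8 * δ))
    (hcomm : ‖v * B - B * v‖ ≤ 8 * δ) :
    ‖B * L - v * (B * C) * star v‖ ≤ δ * (16 * β + 8 * γ + 128) := by
  have hC : ‖C‖ ≤ γ + 16 * δ := by
    have h2 := norm_sub_norm_le (v * C * star v) L
    rw [norm_sub_rev, norm_conj_eq hv] at h2
    linarith
  have e : B * L - v * (B * C) * star v =
      B * (L - v * C * star v) + -((v * B - B * v) * C * star v) := by
    simp only [mul_sub, sub_mul, mul_assoc]
    abel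
  rw [e]
  refine (norm_add_le _ _).trans ?_
  rw [norm_neg, CStarRing.norm_mul_mem_unitary _ (Unitary.star_mem hv)]
  have t1 := (norm_mul_le B (L - v * C * star v)).trans
    (mul_le_mul hB hc (norm_nonneg _) ((norm_nonneg _).trans hB))
  have t2 := (norm_mul_le (v * B - B * v) C).trans
    (mul_le_mul hcomm hC (norm_nonneg _) (mul_nonneg (by norm_num) hδ))
  nlinarith

theorem sum_le {ι : Type*} [Fintype ι] {X : S} {f g : ι → S} {a : ℝ} {e : ι → ℝ}
    (hX : ‖X - ∑ l, f l‖ ≤ a) (hf : ∀ l, ‖f l - v * g l * star v‖ ≤ e l) :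
    ‖X - v * (∑ l, g l) * star v‖ ≤ a + ∑ l, e l := by
  have h : X - v * (∑ l, g l) * star v = (X - ∑ l, f l) + ∑ l, (f l - v * g l * star v) := by
    rw [Finset.sum_sub_distrib, Finset.mul_sum, Finset.sum_mul]
    abel
  rw [h]
  exact (norm_add_le _ _).trans
    (add_le_add hX ((norm_sum_le _ _).trans (Finset.sum_le_sum fun l _ => hf l)))

end ApproxAux

end Vale.Agent.P101.Lit
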